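import Vale.Agent.P216.H126Z.G3
import Vale.Agent.P216.H808.Z10Props

/-!
# P216-B7, Z10: the two frames (`Fb` and `PZ`) agree; `CGoal`
-/

set_option linter.all false

open Set Filter Topology unitInterval
open scoped BoundedContinuousFunction

namespace Vale.Agent.P216.H126Z

open Vale.Agent.P216.B7 (ex Xt Slb)
open Vale.Agent.P216.H971Z (Lf PZ XZ stz PZ_mono G2Goal G3Goal)
open Vale.Agent.P216.H808 (IsHt lab Fb)

variable {M : Type} [MetricSpace M] {h : C(M, Circle)} {t : ℝ} {b v : M × ℝ} {w : ℝ →ᵇ M}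

/-- A continuous function with `ex ∘ f` constant on a preconnected set is constant there. -/
theorem const_of_ex {f : ℝ → ℝ} (hf : Continuous f) {S : Set ℝ} (hS : IsPreconnected S) {z : Circle}
    (h : ∀ u ∈ S, ex (f u) = z) {u u' : ℝ} (hu : u ∈ S) (hu' : u' ∈ S) : f u = f u' := by
  refine hS.induction₂ (fun v w => f v = f w) (fun v hv => ?_)
    (fun _ _ _ _ _ _ h h' => h.trans h') (fun _ _ _ _ h => h.symm) hu hu'
  have h1 : ∀ᶠ w in 𝓝[S] v, |f w - f v| < 1 / 2 := by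
    have := hf.continuousAt.eventually (Metric.ball_mem_nhds (f v) (show (0 : ℝ) < 1 / 2 by norm_num))
    exact mem_nhdsWithin_of_mem_nhds this
  filter_upwards [h1, self_mem_nhdsWithin] with w hw hwS
  have h2 : ex (f w - f v) = 1 := by
    rw [ex_sub, h w hwS, h v hv, div_self']
  have h3 := la_ex hw
  rw [h2, la_one] at h3
  linarith

/-- A height is a lift in the sense of `Lf`. -/
theorem lf_of_isHt {f : ℝ → ℝ} (hw : w ∈ H456.PF b.1 t) (hf : IsHt h b w f) :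
    Lf h t (f 0) b.2 w := by
  obtain ⟨h1, h2, T, hT⟩ := hf
  refine ⟨f, h1, h2, fun u hu => ?_, fun u hu => ?_⟩
  · refine const_of_ex h1 (isPreconnected_Iic (a := (0 : ℝ))) (z := h (w 0)) (fun u hu => ?_) hu
      (le_refl (0 : ℝ))
    rw [← h2, hw.2.1 u hu]
  · have e : f u = f (max T t) := by
      refine const_of_ex h1 (isPreconnected_Ici (a := t)) (z := h b.1) (fun u hu => ?_) hu
        (mem_Ici.2 (le_max_right T t))
      rw [← h2, hw.2.2 u hu]
    rw [e, hT _ (le_max_left _ _)]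

theorem isHt_of_lf {r : ℝ} (H : Lf h t r b.2 w) : ∃ f, IsHt h b w f ∧ f 0 = r := by
  obtain ⟨θ, h1, h2, h3, h4⟩ := H
  exact ⟨θ, ⟨h1, h2, t, h4⟩, h3 0 le_rfl⟩

/-- **The two frames agree.** -/
theorem Fb_eq [CompactSpace M] (hA : H808.AGoal) (hb : b ∈ Xt h) (ht : 0 ≤ t) :
    Fb h b v t = PZ h v b t := by
  obtain ⟨a1, a2, -, -⟩ := hA M h b hb t ht
  ext w
  constructor
  · rintro ⟨hw, hl⟩
    obtain ⟨f, hf⟩ := a1 w hw
    have e := a2 w hw f hf
    rw [hl] at e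
    have e1 : v.1 = w 0 := congrArg Prod.fst e
    have e2 : v.2 = f 0 := congrArg Prod.snd e
    refine ⟨?_, ?_⟩
    · rw [e1]
      exact H456.mem_PF_iff.1 hw
    · rw [e2]
      exact lf_of_isHt hw hf
  · rintro ⟨hw, hl⟩
    have hw' : w ∈ H456.PF b.1 t := H456.P_subset_PF hw
    obtain ⟨f, hf, hf0⟩ := isHt_of_lf hl
    refine ⟨hw', ?_⟩
    rw [a2 w hw' f hf, hf0]
    exact Prod.ext (hw.2.1 0 le_rfl) rfl

/-- **C** -/
theorem cGoal (hA : H808.AGoal) (h2 : ∀ (M : Type) [MetricSpace M] [CompactSpace M] (ρ : ℝ),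
    0 < ρ → LS.UniqSeg M ρ → ∀ h : C(M, Circle), SimplyConnectedSpace (Xt h) → G2Goal M h) :
    H808.CGoal := by
  intro M _ _ ρ hρ hU h hsc R t ht
  obtain ⟨t', ht', H⟩ := g3Goal hρ hU h hsc (h2 M ρ hρ hU h hsc) R t
  refine ⟨t', ht', fun b hb v hv w hw w' hw' => ?_⟩
  rw [Fb_eq hA hb.1 ht] at hw hw'
  rw [Fb_eq hA hb.1 (ht.trans ht')]
  exact H v hv b hb w hw w' hw'

end Vale.Agent.P216.H126Z
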