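import Vale.Agent.P216.H971Z.Frame
import Vale.Agent.P216.H250.Pi0P
import Vale.Agent.P216.LS.Lift

/-!
# P216-B7, Z10, (G2), (G3): tools
-/

set_option linter.all false

open Set Filter Topology unitInterval
open scoped BoundedContinuousFunction

namespace Vale.Agent.P216.H126Z

open Vale.Agent.P216.B7 (ex Xt Slb)
open Vale.Agent.P216.H250 (PF cat rev)
open Vale.Agent.P216.H971Z (Lf PZ G2Goal G3Goal)

/-! ### The correction near `1` -/

/-- A logarithm on the circle. -/
noncomputable def la (z : Circle) : ℝ := Complex.arg (z : ℂ) / (2 * Real.pi)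

theorem ex_la (z : Circle) : ex (la z) = z := by
  unfold ex la
  rw [mul_div_cancel₀ _ (by positivity)]
  exact Circle.exp_arg z

theorem ex_add (a b : ℝ) : ex (a + b) = ex a * ex b := by
  unfold ex
  rw [mul_add, Circle.exp_add]

theorem ex_sub (a b : ℝ) : ex (a - b) = ex a / ex b := by
  unfold ex
  rw [mul_sub, Circle.exp_sub]

theorem ex_zero : ex 0 = 1 := by
  unfold ex
  rw [mul_zero, Circle.exp_zero]

theorem la_one : la 1 = 0 := by
  unfold la
  simp

theorem continuous_ex : Continuous ex := by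
  unfold ex
  fun_prop

theorem la_ex {r : ℝ} (h : |r| < 1 / 2) : la (ex r) = r := by
  unfold la ex
  rw [abs_lt] at h
  have hp := Real.pi_pos
  rw [Circle.arg_exp (by nlinarith) (by nlinarith)]
  field_simp

theorem dist_div_one (a b : Circle) : dist (a / b) 1 = dist a b := by
  show dist ((a / b : Circle) : ℂ) ((1 : Circle) : ℂ) = dist (a : ℂ) (b : ℂ)
  rw [dist_eq_norm, dist_eq_norm, Circle.coe_div, Circle.coe_one]
  have hb : (b : ℂ) ≠ 0 := Circle.coe_ne_zero b
  have : (a : ℂ) / b - 1 = (a - b) / b := by field_simp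
  rw [this, norm_div, Circle.norm_coe, div_one]

theorem mem_slit {z : Circle} (h : dist z 1 < 1) : (z : ℂ) ∈ Complex.slitPlane := by
  have h1 : ‖(z : ℂ) - 1‖ < 1 := by
    rw [← dist_eq_norm]
    exact h
  exact LS.mem_slitPlane_of_norm_sub_one h1

theorem continuousOn_la : ContinuousOn la {z | dist z 1 < 1} := by
  intro z hz
  have h1 : ContinuousAt (fun z : Circle => Complex.arg (z : ℂ)) z :=
    (Complex.continuousAt_arg (mem_slit hz)).comp continuous_subtype_val.continuousAt
  exact (h1.div_const _).continuousWithinAt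

/-! ### Lifts -/

variable {M : Type} [MetricSpace M]

variable {h : C(M, Circle)} {t t' r s s' : ℝ} {w w' : ℝ → M}

theorem lf_cat (H : Lf h t r s w) (H' : Lf h t' s s' w') (ht : 0 ≤ t) (ht' : 0 ≤ t') :
    Lf h (t + t') r s' (cat t w w') := by
  obtain ⟨θ, h1, h2, h3, h4⟩ := H
  obtain ⟨θ', h1', h2', h3', h4'⟩ := H'
  refine ⟨fun u => if u ≤ t then θ u else θ' (u - t), ?_, fun u => ?_, fun u hu => ?_,
    fun u hu => ?_⟩
  · refine Continuous.if_le h1 (h1'.comp (by fun_prop)) continuous_id continuous_const fun u hu => ?_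
    rw [hu, h4 t le_rfl, sub_self, h3' 0 le_rfl]
  · simp only
    by_cases hu : u ≤ t
    · rw [H250.cat_of_le hu, if_pos hu, h2]
    · rw [H250.cat_of_lt (not_le.1 hu), if_neg hu, h2']
  · simp only
    rw [if_pos (hu.trans ht), h3 u hu]
  · simp only
    by_cases hu' : u ≤ t
    · have e : u = t := le_antisymm hu' (by linarith)
      have e' : t' = 0 := by linarith
      rw [if_pos hu', h4 u e.ge, ← h3' 0 le_rfl, h4' 0 e'.le]
    · rw [if_neg hu', h4' _ (by linarith)]

theorem lf_rev (H : Lf h t r s w) : Lf h t s r (rev t w) := by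
  obtain ⟨θ, h1, h2, h3, h4⟩ := H
  exact ⟨fun u => θ (t - u), h1.comp (by fun_prop), fun u => h2 _, fun u hu => h4 _ (by linarith),
    fun u hu => h3 _ (by linarith)⟩

/-- A uniform scale for `h`. -/
theorem exists_delta [CompactSpace M] (h : C(M, Circle)) :
    ∃ δ > 0, ∀ x y : M, dist x y < δ → dist (h x) (h y) < 1 := by
  have hu := CompactSpace.uniformContinuous_of_continuous h.continuous
  obtain ⟨δ, hδ, H⟩ := Metric.uniformContinuous_iff.1 hu 1 one_pos
  exact ⟨δ, hδ, fun x y hxy => H hxy⟩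

/-- **Close paths have close lifts.** -/
theorem lf_near (hd : ∀ u, dist (h (w u)) (h (w' u)) < 1) (hc : Continuous w) (hc' : Continuous w')
    (h0 : ∀ u ≤ 0, w' u = w' 0) (h1 : ∀ u, t ≤ u → w' u = w' t)
    (h0' : ∀ u ≤ 0, w u = w 0) (h1' : ∀ u, t ≤ u → w u = w t) (H : Lf h t r s w) :
    Lf h t (r + la (h (w' 0) / h (w 0))) (s + la (h (w' t) / h (w t))) w' := by
  obtain ⟨θ, c1, c2, c3, c4⟩ := H
  refine ⟨fun u => θ u + la (h (w' u) / h (w u)), ?_, fun u => ?_, fun u hu => ?_, fun u hu => ?_⟩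
  · refine c1.add (continuousOn_la.comp_continuous (f := fun u => h (w' u) / h (w u))
      ((h.continuous.comp hc').div' (h.continuous.comp hc)) fun u => ?_)
    show dist (h (w' u) / h (w u)) 1 < 1
    rw [dist_div_one, dist_comm]
    exact hd u
  · rw [ex_add, ex_la, ← c2, mul_comm, div_mul_cancel]
  · simp only
    rw [c3 u hu, h0 u hu, h0' u hu]
  · simp only
    rw [c4 u hu, h1 u hu, h1' u hu]

/-- The same with the same end points. -/
theorem lf_near' (hd : ∀ u, dist (h (w u)) (h (w' u)) < 1) (hc : Continuous w)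
    (hc' : Continuous w') {a b : M} (h0 : ∀ u ≤ 0, w' u = a) (h1 : ∀ u, t ≤ u → w' u = b)
    (h0' : ∀ u ≤ 0, w u = a) (h1' : ∀ u, t ≤ u → w u = b) (H : Lf h t r s w) : Lf h t r s w' := by
  have := lf_near hd hc hc' (fun u hu => by rw [h0 u hu, h0 0 le_rfl])
    (fun u hu => by rw [h1 u hu, h1 t le_rfl]) (fun u hu => by rw [h0' u hu, h0' 0 le_rfl])
    (fun u hu => by rw [h1' u hu, h1' t le_rfl]) H
  rw [h0 0 le_rfl, h0' 0 le_rfl, h1 t le_rfl, h1' t le_rfl, div_self', div_self', la_one, add_zero,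
    add_zero] at this
  exact this

/-- A path of paths stays in `PZ`. -/
theorem joinedIn_PZ [CompactSpace M] (h : C(M, Circle)) {p p' : M × ℝ} {v v' : ℝ →ᵇ M}
    (hv : v ∈ PZ h p p' t) (hj : JoinedIn (PS.P p.1 p'.1 t) v v') : JoinedIn (PZ h p p' t) v v' := by
  obtain ⟨δ, hδ, H⟩ := exists_delta h
  obtain ⟨γ, hγ⟩ := hj
  have key : ∀ s s' : I, dist (γ s) (γ s') < δ → Lf h t p.2 p'.2 (γ s) →
      Lf h t p.2 p'.2 (γ s') := by
    intro s s' hd hL
    have m : (γ s : ℝ → M) ∈ PF p.1 p'.1 t := hγ s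
    have m' : (γ s' : ℝ → M) ∈ PF p.1 p'.1 t := hγ s'
    exact lf_near' (fun u => H _ _ ((BoundedContinuousFunction.dist_coe_le_dist u).trans_lt hd))
      (γ s).continuous (γ s').continuous m'.2.1 m'.2.2 m.2.1 m.2.2 hL
  have hS : ∀ s : I, Lf h t p.2 p'.2 (γ s) := by
    have hcl : IsClopen {s : I | Lf h t p.2 p'.2 (γ s)} := by
      constructor
      · rw [← isOpen_compl_iff, isOpen_iff_mem_nhds]
        intro s hs
        have h1 : ∀ᶠ s' in 𝓝 s, dist (γ s') (γ s) < δ :=
          γ.continuous.continuousAt.eventually (Metric.ball_mem_nhds _ hδ)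
        filter_upwards [h1] with s' hs' hL
        exact hs (key _ _ hs' hL)
      · rw [isOpen_iff_mem_nhds]
        intro s hs
        have h1 : ∀ᶠ s' in 𝓝 s, dist (γ s') (γ s) < δ :=
          γ.continuous.continuousAt.eventually (Metric.ball_mem_nhds _ hδ)
        filter_upwards [h1] with s' hs'
        exact key _ _ (by rwa [dist_comm]) hs
    have := hcl.eq_univ ⟨0, by
      show Lf h t p.2 p'.2 (γ 0)
      rw [γ.source]
      exact hv.2⟩
    intro s
    have hs : s ∈ (univ : Set I) := mem_univ s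
    rw [← this] at hs
    exact hs
  exact ⟨γ, fun s => ⟨hγ s, hS s⟩⟩

end Vale.Agent.P216.H126Z
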