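import Vale.Agent.P216.H126Z.C
import Vale.Agent.P216.H456Z.Lab
import Vale.Agent.P216.B7893.G2

/-!
# P216-B7, Z10: `CGoal`, unconditional
-/

namespace Vale.Agent.P216.H126Z

/-- **C** -/
theorem cGoal' : H808.CGoal :=
  cGoal H456Z.aGoal fun M _ _ ρ hρ hU h hsc => B7893.g2Goal' hρ hU h hsc

/-- **(G3)**, unconditional. -/
theorem g3Goal' {M : Type} [MetricSpace M] [CompactSpace M] {ρ : ℝ} (hρ : 0 < ρ)
    (hU : LS.UniqSeg M ρ) (h : C(M, Circle)) (hsc : SimplyConnectedSpace (B7.Xt h)) :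
    H971Z.G3Goal M h :=
  g3Goal hρ hU h hsc (B7893.g2Goal' hρ hU h hsc)

end Vale.Agent.P216.H126Z
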