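import Vale.Agent.P216.H126Z.A
import Vale.Agent.P216.H215.Z10c

/-!
# P216-B7, Z10, (G3): paths of `Xt h` with the same end points are joined
-/

set_option linter.all false

open Set Filter Topology unitInterval
open scoped BoundedContinuousFunction

namespace Vale.Agent.P216.H126Z

open Vale.Agent.P216.B7 (ex Xt Slb)
open Vale.Agent.P216.H250
open Vale.Agent.P216.H971Z (Lf PZ PZ_mono G2Goal G3Goal)
open Vale.Agent.P216.H215.Z10c (pth joined_of_homotopic homotopic_of_lift)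

variable {M : Type} [MetricSpace M]

theorem cat_const_right {a b : M} {t : ℝ} {v : ℝ → M} (hv : v ∈ PF a b t) :
    cat t v (fun _ => b) = v := by
  funext u
  rcases le_or_gt u t with h | h
  · rw [cat_of_le h]
  · rw [cat_of_lt h, hv.2.2 u h.le]

/-- `v` is joined to its conjugate. -/
theorem unroll {o a b : M} {t T t'' : ℝ} (ht : 0 ≤ t) (hT : 0 ≤ T) (hT'' : T + (t + T) ≤ t'')
    {Q Q' v : ℝ → M} (hQ : Q ∈ PF o a T) (hQ' : Q' ∈ PF o b T) (hv : v ∈ PF a b t) :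
    JoinedIn (PF a b (T + (t'' + T) + ((T + T) + (t + (T + T))))) v
      (cat T (rev T Q) (cat t'' (cat T Q (cat t v (rev T Q'))) Q')) := by
  have hTT : 0 ≤ T + T := by positivity
  have htT : 0 ≤ t + (T + T) := by positivity
  have ht'' : 0 ≤ t'' := (by positivity : 0 ≤ T + (t + T)).trans hT''
  have j1 : JoinedIn (PF a b ((T + T) + t)) v (cat (T + T) (fun _ => a) v) := by
    have := JI.wait (le_refl (0 : ℝ)) hTT ht (const_mem a 0) hv
    rwa [cat_const hv] at this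
  have hX : cat t v (cat T (rev T Q') Q') ∈ PF a b (t + (T + T)) :=
    cat_mem ht hTT hv (cat_mem hT hT (rev_mem hQ') hQ')
  have j2 : JoinedIn (PF a b ((T + T) + (t + (T + T)))) (cat (T + T) (fun _ => a) v)
      (cat (T + T) (fun _ => a) (cat t v (cat T (rev T Q') Q'))) := by
    have h1 := JI.cat_right ht hTT hv (JI.spur hT hQ')
    rw [cat_const_right hv] at h1
    exact JI.cat_right hTT htT (const_mem a (T + T)) h1
  have j3 : JoinedIn (PF a b ((T + T) + (t + (T + T))))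
      (cat (T + T) (fun _ => a) (cat t v (cat T (rev T Q') Q')))
      (cat (T + T) (cat T (rev T Q) Q) (cat t v (cat T (rev T Q') Q'))) :=
    JI.cat_left hTT htT (JI.spur hT hQ) hX
  have e1 : cat (T + T) (cat T (rev T Q) Q) (cat t v (cat T (rev T Q') Q')) =
      cat T (rev T Q) (cat (T + (t + T)) (cat T Q (cat t v (rev T Q'))) Q') := by
    rw [cat_assoc hT, cat_assoc (t' := t + T) (by positivity), cat_assoc hT]
  have hA : cat T Q (cat t v (rev T Q')) ∈ PF o o (T + (t + T)) :=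
    cat_mem hT (by positivity) hQ (cat_mem ht hT hv (rev_mem hQ'))
  have j4 := JI.cat_right hT (by positivity) (rev_mem hQ)
    (JI.wait (by positivity) hT'' hT hA hQ')
  rw [e1] at j3
  have m1 : PF a b ((T + T) + t) ⊆ PF a b (T + (t'' + T) + ((T + T) + (t + (T + T)))) :=
    PF.mono (by linarith)
  have m2 : PF a b ((T + T) + (t + (T + T))) ⊆
      PF a b (T + (t'' + T) + ((T + T) + (t + (T + T)))) := PF.mono (by linarith)
  have m3 : PF a b (T + (t'' + T)) ⊆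
      PF a b (T + (t'' + T) + ((T + T) + (t + (T + T)))) := PF.mono (by linarith)
  exact (((j1.mono m1).trans (j2.mono m2)).trans (j3.mono m2)).trans (j4.mono m3)

theorem conj_join {o a b : M} {t T t'' : ℝ} (ht : 0 ≤ t) (hT : 0 ≤ T) (hT'' : T + (t + T) ≤ t'')
    {Q Q' v v' : ℝ → M} (hQ : Q ∈ PF o a T) (hQ' : Q' ∈ PF o b T) (hv : v ∈ PF a b t)
    (hv' : v' ∈ PF a b t)
    (hj : JoinedIn (PF o o t'') (cat T Q (cat t v (rev T Q'))) (cat T Q (cat t v' (rev T Q')))) :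
    JoinedIn (PF a b (T + (t'' + T) + ((T + T) + (t + (T + T))))) v v' := by
  have ht'' : 0 ≤ t'' := (by positivity : 0 ≤ T + (t + T)).trans hT''
  have h1 := JI.cat_right hT (by positivity) (rev_mem hQ) (JI.cat_left ht'' hT hj hQ')
  have m3 : PF a b (T + (t'' + T)) ⊆
      PF a b (T + (t'' + T) + ((T + T) + (t + (T + T)))) := PF.mono (by linarith)
  exact ((unroll ht hT hT'' hQ hQ' hv).trans (h1.mono m3)).trans (unroll ht hT hT'' hQ hQ' hv').symm

variable {h : C(M, Circle)} {t T : ℝ}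

/-- Two elements of `PZ` are homotopic. -/
theorem homotopic_pth [SimplyConnectedSpace (Xt h)] {p p' : M × ℝ} (hp : p ∈ Xt h)
    (hp' : p' ∈ Xt h) {w w' : ℝ →ᵇ M} (hw : w ∈ PZ h p p' t) (hw' : w' ∈ PZ h p p' t) :
    (pth hw.1).Homotopic (pth hw'.1) := by
  have key : ∀ (w : ℝ →ᵇ M) (hw : w ∈ PZ h p p' t), ∃ Γ : Path (⟨p, hp⟩ : Xt h) ⟨p', hp'⟩,
      ∀ s, (Γ s).1.1 = pth hw.1 s := by
    intro w hw
    obtain ⟨θ, c1, c2, c3, c4⟩ := hw.2
    refine ⟨⟨⟨fun s : I => ⟨(w (s * t), θ (s * t)), c2 _⟩, ?_⟩, ?_, ?_⟩, fun s => rfl⟩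
    · refine Continuous.subtype_mk ?_ _
      exact (w.continuous.comp (by fun_prop)).prodMk (c1.comp (by fun_prop))
    · refine Subtype.ext (Prod.ext ?_ ?_)
      · show w (((0 : I) : ℝ) * t) = p.1
        rw [show ((0 : I) : ℝ) = 0 from rfl, zero_mul]
        exact hw.1.2.1 0 le_rfl
      · show θ (((0 : I) : ℝ) * t) = p.2
        rw [show ((0 : I) : ℝ) = 0 from rfl, zero_mul]
        exact c3 0 le_rfl
    · refine Subtype.ext (Prod.ext ?_ ?_)
      · show w (((1 : I) : ℝ) * t) = p'.1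
        rw [show ((1 : I) : ℝ) = 1 from rfl, one_mul]
        exact hw.1.2.2 t le_rfl
      · show θ (((1 : I) : ℝ) * t) = p'.2
        rw [show ((1 : I) : ℝ) = 1 from rfl, one_mul]
        exact c4 t le_rfl
  obtain ⟨Γ, hΓ⟩ := key w hw
  obtain ⟨Γ', hΓ'⟩ := key w' hw'
  exact homotopic_of_lift (X := Xt h) ⟨fun x => x.1.1, by fun_prop⟩ Γ Γ' hΓ hΓ'

theorem mo_mem_PZ [CompactSpace M] {p p' : M × ℝ} {f : ℝ → M} (hf : f ∈ PF p.1 p'.1 t)
    (hL : Lf h t p.2 p'.2 f) : PS.mo f ∈ PZ h p p' t := by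
  refine ⟨mo_mem_P hf, ?_⟩
  have e : ((PS.mo f : ℝ →ᵇ M) : ℝ → M) = f := by
    funext u
    exact PS.Lip.mo_apply hf.1 u
  rw [e]
  exact hL

/-- **(G3)** -/
theorem g3Goal [CompactSpace M] {ρ : ℝ} (hρ : 0 < ρ) (hU : LS.UniqSeg M ρ) (h : C(M, Circle))
    (hsc : SimplyConnectedSpace (Xt h)) (h2 : G2Goal M h) : G3Goal M h := by
  intro R t
  obtain ⟨o⟩ : Nonempty (Xt h) := inferInstance
  set t₀ := max t 0 with ht₀
  have h0 : 0 ≤ t₀ := le_max_right _ _
  have htt : t ≤ t₀ := le_max_left _ _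
  set R' := max R |o.1.2| with hR'
  have hoR : o.1 ∈ Slb h R' := ⟨o.2, le_max_right _ _⟩
  have hsub : ∀ p ∈ Slb h R, p ∈ Slb h R' := fun p hp => ⟨hp.1, hp.2.trans (le_max_left _ _)⟩
  obtain ⟨T, hT, hne⟩ := h2 R'
  have hN : 0 ≤ T + (t₀ + T) := by positivity
  obtain ⟨t'', ht'', H⟩ := joined_of_homotopic hρ hU o.1.1 o.1.1 hN
  refine ⟨T + (t'' + T) + ((T + T) + (t₀ + (T + T))), by linarith, fun p hp p' hp' v hv v' hv' => ?_⟩
  obtain ⟨Q, hQ⟩ := hne o.1 hoR p (hsub p hp)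
  obtain ⟨Q', hQ'⟩ := hne o.1 hoR p' (hsub p' hp')
  have hv0 := PZ_mono htt hv
  have hv0' := PZ_mono htt hv'
  have hmem : ∀ w ∈ PZ h p p' t₀, PS.mo (cat T Q (cat t₀ w (rev T Q'))) ∈
      PZ h o.1 o.1 (T + (t₀ + T)) := by
    intro w hw
    refine mo_mem_PZ ?_ ?_
    · exact cat_mem hT (by positivity) hQ.1 (cat_mem h0 hT hw.1 (rev_mem hQ'.1))
    · exact lf_cat hQ.2 (lf_cat hw.2 (lf_rev hQ'.2) h0 hT) hT (by positivity)
  have hj := H _ (hmem v hv0).1 _ (hmem v' hv0').1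
    (homotopic_pth o.2 o.2 (hmem v hv0) (hmem v' hv0'))
  have hj' : JoinedIn (PF o.1.1 o.1.1 t'') (cat T Q (cat t₀ v (rev T Q')))
      (cat T Q (cat t₀ v' (rev T Q'))) := by
    have hco : ∀ w ∈ PZ h p p' t₀, ((PS.mo (cat T Q (cat t₀ w (rev T Q'))) : ℝ →ᵇ M) : ℝ → M) =
        cat T Q (cat t₀ w (rev T Q')) := by
      intro w hw
      funext u
      exact PS.Lip.mo_apply (cat_mem hT (by positivity) hQ.1
        (cat_mem h0 hT hw.1 (rev_mem hQ'.1))).1 u
    have := joinedIn_map (f := fun w : ℝ →ᵇ M => (w : ℝ → M)) (G := PF o.1.1 o.1.1 t'') hj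
      (BoundedContinuousFunction.continuous_coe).continuousOn fun w hw => hw
    rwa [hco v hv0, hco v' hv0'] at this
  have hfin := joinedIn_P (by linarith) (conj_join h0 hT ht'' hQ.1 hQ'.1 hv0.1 hv0'.1 hj')
  exact joinedIn_PZ h (PZ_mono (by linarith) hv) hfin

end Vale.Agent.P216.H126Z
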